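import Vale.Agent.P050.V3.H222.Graph
import Vale.Agent.P050.H222.F

/-!
P050: the Moebius ladder without a set of rungs: densities (helper222).
-/

set_option linter.unusedSectionVars false

namespace Vale.Agent.P050.V3.H222

open Finset Vale.Agent.P050.H148 Vale.Agent.P050.M18 Vale.Agent.P050.H546 Vale.Agent.P050.H222
open Vale.Agent.P050.V3

section count

variable (D : Finset ℕ) (n t : ℕ)

theorem kept {k : ℕ} (hD : D ⊆ range k) :
    (∑ j ∈ range k, if j ∉ D then 1 else 0) + D.card = k := by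
  have h1 : (∑ j ∈ range k, if j ∈ D then 1 else 0) = D.card := by
    rw [← Finset.card_filter]
    congr 1
    ext j
    simp only [mem_filter]
    exact ⟨fun h => h.2, fun h => ⟨hD h, h⟩⟩
  rw [← h1, ← Finset.sum_add_distrib]
  have h2 : ∀ j ∈ range k, ((if j ∉ D then 1 else 0) + if j ∈ D then 1 else 0) = 1 := by
    intro j _
    by_cases h : j ∈ D <;> simp [h]
  rw [Finset.sum_congr rfl h2]
  simp

theorem nr_one : nr (fun i => decide (n + 2 * t + 3 + i ∉ D)) n =
    ∑ i ∈ range n, if n + 2 * t + 4 + i ∉ D then 1 else 0 := by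
  unfold nr
  rw [Finset.card_filter]
  refine Finset.sum_congr rfl fun i _ => ?_
  simp only [decide_eq_true_eq]
  rw [show n + 2 * t + 3 + (i + 1) = n + 2 * t + 4 + i by ring]

theorem nr_two : nr (fun i => decide (n + 2 * t + 3 - i ∉ D)) (n + t + 2) =
    ∑ i ∈ range (n + t + 2), if t + 1 + i ∉ D then 1 else 0 := by
  unfold nr
  rw [Finset.card_filter, ← Finset.sum_range_reflect]
  refine Finset.sum_congr rfl fun i hi => ?_
  have hi' := mem_range.1 hi
  simp only [decide_eq_true_eq]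
  rw [show n + 2 * t + 3 - (n + t + 2 - 1 - i + 1) = t + 1 + i by omega]

theorem ns_one : ns (fun i => decide (n + 2 * t + 3 + i ∉ D)) n =
    ∑ i ∈ range n, if n + 2 * t + 3 + i ∉ D ∧ n + 2 * t + 3 + i + 1 ∉ D then 1 else 0 := by
  unfold ns
  rw [Finset.card_filter]
  refine Finset.sum_congr rfl fun i _ => ?_
  simp only [decide_eq_true_eq]
  rfl

theorem ns_two : ns (fun i => decide (n + 2 * t + 3 - i ∉ D)) (n + t + 2) =
    ∑ i ∈ range (n + t + 2), if t + 1 + i ∉ D ∧ t + 1 + i + 1 ∉ D then 1 else 0 := by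
  unfold ns
  rw [Finset.card_filter, ← Finset.sum_range_reflect]
  refine Finset.sum_congr rfl fun i hi => ?_
  have hi' := mem_range.1 hi
  simp only [decide_eq_true_eq]
  rw [show n + 2 * t + 3 - (n + t + 2 - 1 - i + 1) = t + 1 + i by omega,
    show n + 2 * t + 3 - (n + t + 2 - 1 - i) = t + 1 + i + 1 by omega]
  exact if_congr and_comm rfl rfl

theorem split (f : ℕ → ℕ) : ∑ j ∈ range (2 * n + 2 * t + 5), f j =
    ∑ j ∈ range t, f j + f t + ∑ i ∈ range (n + t + 2), f (t + 1 + i) + f (n + 2 * t + 3) +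
      ∑ i ∈ range n, f (n + 2 * t + 4 + i) + f (2 * n + 2 * t + 4) := by
  have h1 := Finset.sum_range_succ f (2 * n + 2 * t + 4)
  have h2 := Finset.sum_range_add f (n + 2 * t + 4) n
  have h3 := Finset.sum_range_succ f (n + 2 * t + 3)
  have h4 := Finset.sum_range_add f (t + 1) (n + t + 2)
  have h5 := Finset.sum_range_succ f t
  rw [show n + 2 * t + 4 + n = 2 * n + 2 * t + 4 by ring] at h2
  rw [show t + 1 + (n + t + 2) = n + 2 * t + 3 by ring] at h4
  have e1 : 2 * n + 2 * t + 5 = 2 * n + 2 * t + 4 + 1 := rfl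
  have e2 : n + 2 * t + 4 = n + 2 * t + 3 + 1 := rfl
  rw [e1, h1, h2]
  have h6 : ∑ x ∈ range (n + 2 * t + 4), f x = ∑ x ∈ range (n + 2 * t + 3), f x +
    f (n + 2 * t + 3) := h3
  rw [h6, h4, h5]

/-- the number of the rungs -/
theorem rungs (hD : D ⊆ range (2 * n + 2 * t + 5)) (ht : range t ⊆ D) (h0 : t ∉ D)
    (hc : n + 2 * t + 3 ∉ D) (hl : 2 * n + 2 * t + 4 ∉ D) :
    nr (fun i => decide (n + 2 * t + 3 + i ∉ D)) n +
      nr (fun i => decide (n + 2 * t + 3 - i ∉ D)) (n + t + 2) + 3 + D.card =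
      2 * n + 2 * t + 5 := by
  have h1 := kept D hD
  rw [split n t (fun j => if j ∉ D then 1 else 0)] at h1
  have e1 : (∑ x ∈ range t, if x ∉ D then 1 else 0) = 0 :=
    Finset.sum_eq_zero fun x hx => if_neg (fun h => h (ht hx))
  rw [e1, if_pos h0, if_pos hc, if_pos hl] at h1
  rw [nr_one, nr_two]
  omega

/-- the number of the squares -/
theorem squares : ns (fun i => decide (n + 2 * t + 3 + i ∉ D)) n +
      ns (fun i => decide (n + 2 * t + 3 - i ∉ D)) (n + t + 2) =
      ((Ico (t + 1) (2 * n + 2 * t + 3)).filter fun i => i ∉ D ∧ i + 1 ∉ D).card := by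
  rw [ns_one, ns_two, Finset.card_filter, Finset.sum_Ico_eq_sum_range]
  have h1 := Finset.sum_range_add
    (fun i => if t + 1 + i ∉ D ∧ t + 1 + i + 1 ∉ D then 1 else 0) (n + t + 2) n
  rw [show 2 * n + 2 * t + 3 - (t + 1) = (n + t + 2) + n by omega, h1, add_comm]
  congr 1
  refine Finset.sum_congr rfl fun i _ => ?_
  rw [show t + 1 + (n + t + 2 + i) = n + 2 * t + 3 + i by ring]

end count

/-- **the theorem, from the entropy side** -/
theorem final3 (he : Ent3Stmt) : Final3Stmt := by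
  intro X _ _ G k t D hk ht1 hk7 hD ht h0 h1 hc h2 h3 h5
  classical
  rcases (edge_nn G).lt_or_eq with hp | hp
  swap
  · have hcard : D.card ≤ k := by
      have := Finset.card_le_card hD
      rwa [Finset.card_range] at this
    rw [← hp, zero_pow (by omega)]
    exact hom_nn G _
  obtain ⟨n, rfl⟩ : ∃ n, k = 2 * n + 2 * t + 5 := by
    obtain ⟨r, rfl⟩ := hk
    exact ⟨r - t - 2, by omega⟩
  have hn1 : 1 ≤ n := by omega
  rw [show (2 * n + 2 * t + 5 + 2 * t + 1) / 2 = n + 2 * t + 3 by omega] at hc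
  rw [show 2 * n + 2 * t + 5 - 2 = 2 * n + 2 * t + 3 by omega] at h2 h5
  rw [show 2 * n + 2 * t + 5 - 1 = 2 * n + 2 * t + 4 by omega] at h3
  have hG := exists_adj G hp
  have hn := card_pos' (X := X)
  set P1 : ℕ → Bool := fun i => decide (n + 2 * t + 3 + i ∉ D) with hP1
  set P2 : ℕ → Bool := fun i => decide (n + 2 * t + 3 - i ∉ D) with hP2
  have hr := rungs D n t hD ht h0 hc h3
  have hs := squares D n t
  rw [← hP1, ← hP2] at hr hs
  have a1 : P1 0 = true := decide_eq_true hc
  have a2 : P2 0 = true := decide_eq_true hc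
  have a3 : P1 n = true := decide_eq_true (by
    rw [show n + 2 * t + 3 + n = 2 * n + 2 * t + 3 by ring]; exact h2)
  have a4 : P2 (n + t + 2) = true := decide_eq_true (by
    rw [show n + 2 * t + 3 - (n + t + 2) = t + 1 by omega]; exact h1)
  have a5 : P1 (n + 1) = true := decide_eq_true (by
    rw [show n + 2 * t + 3 + (n + 1) = 2 * n + 2 * t + 4 by ring]; exact h3)
  have a6 : P2 (n + t + 3) = true := decide_eq_true (by
    rw [show n + 2 * t + 3 - (n + t + 3) = t by omega]; exact h0)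
  obtain ⟨b1, b2⟩ := he X (adj G) (ue G) (ue_edge G hG) (M18.adj_nn G) (fun x y h => ue_ne G h)
    n t P1 P2 hn1 ht1 a1 a2 a3 a4 a5 a6 (by rw [hs]; exact h5)
  have h6 := graph3 X G n t D ht1 ht hD h0 hc
  rw [← hP1, ← hP2] at h6
  rw [← h6] at b1 b2
  have htp : 0 < homDensity (cutAt (2 * n + 2 * t + 5) D) G := by
    rcases (hom_nn G (cutAt (2 * n + 2 * t + 5) D)).lt_or_eq with h | h
    · exact h
    · rw [← h, zero_mul] at b1
      exact absurd b1 (lt_irrefl _)
  have h4 := ue_aQ G hG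
  have h7 : hQ (ue G) = Real.log (edgeDensity G) + 2 * Real.log (Fintype.card X) := by
    rw [ue_hQ G hG]
    unfold de
    rw [Fintype.sum_prod_type]
    simp only
    rw [adj_sum', Real.log_mul hp.ne' (by positivity), Real.log_pow]
    push_cast
    ring
  rw [h7, Real.log_mul htp.ne' (by positivity), Real.log_pow] at b2
  push_cast at b2
  have h8 := mul_le_mul_of_nonneg_left h4
    (by positivity : (0 : ℝ) ≤ 4 * n + 4 * t + 16 + 2 * (nr P1 n + nr P2 (n + t + 2)))
  rw [← Real.log_le_log_iff (by positivity) htp, Real.log_pow]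
  have h9 : ((3 * (2 * n + 2 * t + 5) - D.card : ℕ) : ℝ) =
      4 * n + 4 * t + 13 + nr P1 n + nr P2 (n + t + 2) := by
    rw [show 3 * (2 * n + 2 * t + 5) - D.card =
      4 * n + 4 * t + 13 + nr P1 n + nr P2 (n + t + 2) by omega]
    push_cast
    ring
  rw [h9]
  nlinarith [b2, h8]

end Vale.Agent.P050.V3.H222
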