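import Vale.Agent.P050.V3.Spec

/-!
P050: the Moebius ladder without a set of rungs: number of homomorphisms (helper222).
-/

set_option linter.unusedSectionVars false

namespace Vale.Agent.P050.V3.H222

open Finset Vale.Agent.P050.H148 Vale.Agent.P050.M18 Vale.Agent.P050.H546 Vale.Agent.P050.H222
open Vale.Agent.P050.V3

section zl

variable {U : Type} [Fintype U] [DecidableEq U] {A : U → U → ℝ}

theorem zl_succ (p : ℕ → Bool) (n : ℕ) (a b : U × U) : zl A p (n + 1) a b =
    ∑ c, zl A p n a c * (A c.1 b.1 * A c.2 b.2 * (if p (n + 1) then A b.1 b.2 else 1)) := rfl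

theorem zl_congr {p q : ℕ → Bool} (n : ℕ) (h : ∀ i, 1 ≤ i → i ≤ n → p i = q i) (a b : U × U) :
    zl A p n a b = zl A q n a b := by
  induction n generalizing b with
  | zero => rfl
  | succ n ih =>
    rw [zl_succ, zl_succ]
    refine Finset.sum_congr rfl fun c _ => ?_
    rw [ih (fun i h1 h2 => h i h1 (by omega)), h (n + 1) (by omega) le_rfl]

theorem zl_add (p : ℕ → Bool) (i j : ℕ) (a b : U × U) : zl A p (i + j) a b =
    ∑ c, zl A p i a c * zl A (fun l => p (i + l)) j c b := by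
  induction j generalizing b with
  | zero =>
    have h : ∀ c, zl A (fun l => p (i + l)) 0 c b = if c = b then 1 else 0 := fun c => rfl
    simp [h]
  | succ j ih =>
    have h1 : zl A p (i + (j + 1)) a b = ∑ c, zl A p (i + j) a c *
      (A c.1 b.1 * A c.2 b.2 * (if p (i + (j + 1)) then A b.1 b.2 else 1)) := rfl
    rw [h1]
    simp only [ih, zl_succ, Finset.sum_mul, Finset.mul_sum]
    rw [Finset.sum_comm]
    refine Finset.sum_congr rfl fun c _ => Finset.sum_congr rfl fun d _ => ?_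
    ring

theorem zl_one (p : ℕ → Bool) (a b : U × U) : zl A p 1 a b =
    A a.1 b.1 * A a.2 b.2 * (if p 1 then A b.1 b.2 else 1) := by
  rw [show (1 : ℕ) = 0 + 1 from rfl, zl_succ]
  have h : ∀ c, zl A p 0 a c = if a = c then 1 else 0 := fun c => rfl
  simp [h]

theorem zl_left (p : ℕ → Bool) (n : ℕ) (a b : U × U) : zl A p (n + 1) a b =
    ∑ c, A a.1 c.1 * A a.2 c.2 * (if p 1 then A c.1 c.2 else 1) *
      zl A (fun l => p (l + 1)) n c b := by
  rw [add_comm n 1, zl_add]
  refine Finset.sum_congr rfl fun c _ => ?_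
  rw [zl_one]
  congr 1
  exact zl_congr n (fun i _ _ => by rw [add_comm 1 i]) c b

/-- reversal -/
theorem zl_rev (hA : ∀ x y, A x y = A y x) (p : ℕ → Bool) (r : ℕ) (b R : U × U) :
    (if p 0 then A b.1 b.2 else 1) * zl A p r b R =
      (if p r then A R.1 R.2 else 1) * zl A (fun i => p (r - i)) r R b := by
  induction r generalizing R with
  | zero =>
    have h : ∀ (q : ℕ → Bool) (x y : U × U), zl A q 0 x y = if x = y then 1 else 0 :=
      fun q x y => rfl
    rw [h, h]
    by_cases hb : b = R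
    · rw [hb]
    · have hb' : ¬ R = b := fun h' => hb h'.symm
      rw [if_neg hb, if_neg hb', mul_zero, mul_zero]
  | succ r ih =>
    rw [zl_succ, zl_left, Finset.mul_sum, Finset.mul_sum]
    refine Finset.sum_congr rfl fun c _ => ?_
    have h1 := ih c
    have h2 : zl A (fun l => p (r + 1 - (l + 1))) r c b = zl A (fun i => p (r - i)) r c b :=
      zl_congr r (fun i _ _ => by rw [Nat.add_sub_add_right]) c b
    have h3 : r + 1 - 1 = r := rfl
    rw [h2, h3, hA R.1 c.1, hA R.2 c.2]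
    calc _ = (if p 0 then A b.1 b.2 else 1) * zl A p r b c *
          (A c.1 R.1 * A c.2 R.2 * (if p (r + 1) then A R.1 R.2 else 1)) := by ring
      _ = _ := by
        rw [h1]
        ring

end zl

section graph

variable {X : Type} [Fintype X]

theorem at_adj {k : ℕ} {D : Finset ℕ} {u v : ZMod k × Bool} : (cutAt k D).Adj u v ↔
    (moebiusLadder k).Adj u v ∧ ¬ ∃ i ∈ D, u.1 = (i : ZMod k) ∧ v.1 = (i : ZMod k) := by
  unfold cutAt
  rw [SimpleGraph.deleteEdges_adj]
  obtain ⟨i, a⟩ := u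
  obtain ⟨j, b⟩ := v
  refine and_congr_right fun h => not_congr ?_
  have hab : a ≠ b := h.1
  simp only [Set.mem_ofPred_eq, Sym2.eq_iff, Prod.mk.injEq]
  cases a <;> cases b <;> simp_all

/-- homomorphisms from the Moebius ladder without the rungs in `D` -/
def atEquiv (G : SimpleGraph X) (k : ℕ) (D : Finset ℕ) (hk : (1 : ZMod k) ≠ 0) :
    (cutAt k D →g G) ≃ {w : ZMod k → X × X //
      (∀ i : ZMod k, (∀ j ∈ D, i ≠ (j : ZMod k)) → G.Adj (w i).1 (w i).2) ∧
      ∀ i : ZMod k, G.Adj (w i).1 (w (i + 1)).2 ∧ G.Adj (w (i + 1)).1 (w i).2} where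
  toFun φ := ⟨fun i => (φ (i, false), φ (i, true)), fun i hi => φ.map_rel
      (at_adj.2 ⟨⟨by simp, Or.inl rfl⟩, fun ⟨j, hj, h, _⟩ => hi j hj h⟩),
    fun i => ⟨φ.map_rel (at_adj.2 ⟨⟨by simp, Or.inr (Or.inr rfl)⟩, fun ⟨j, _, h1, h2⟩ => hk (by
      simp only at h1 h2
      rw [h1] at h2
      exact add_eq_left.1 h2)⟩), φ.map_rel (at_adj.2 ⟨⟨by simp, Or.inr (Or.inl rfl)⟩,
      fun ⟨j, _, h1, h2⟩ => hk (by
      simp only at h1 h2
      rw [h2] at h1
      exact add_eq_left.1 h1)⟩)⟩⟩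
  invFun w := ⟨fun v => if v.2 then (w.1 v.1).2 else (w.1 v.1).1, by
    rintro ⟨i, a⟩ ⟨j, b⟩ hh
    obtain ⟨⟨hab, hij⟩, hn⟩ := at_adj.1 hh
    have hw := w.2
    simp only at hab hij hn
    have h0 : i = j → ∀ l ∈ D, i ≠ (l : ZMod k) := by
      rintro rfl l hl h
      exact hn ⟨l, hl, h, h⟩
    cases a <;> cases b
    · exact absurd rfl hab
    · simp only [Bool.false_eq_true, if_false, if_true]
      rcases hij with h | h | h
      · have := hw.1 i (h0 h)
        subst h
        exact this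
      · subst h; exact (hw.2 j).2
      · subst h; exact (hw.2 i).1
    · simp only [Bool.false_eq_true, if_false, if_true]
      rcases hij with h | h | h
      · have := hw.1 i (h0 h)
        subst h
        exact this.symm
      · subst h; exact (hw.2 j).1.symm
      · subst h; exact (hw.2 i).2.symm
    · exact absurd rfl hab⟩
  left_inv φ := by
    ext ⟨i, a⟩
    cases a <;> rfl
  right_inv w := by
    apply Subtype.ext
    rfl

/-- the rungs after a shift -/
theorem posD {N m t : ℕ} {D : Finset ℕ} (hN : N = m + t) (ht : range t ⊆ D)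
    (hD : D ⊆ range (N + 1)) (i : ZMod (N + 1)) :
    (∀ j ∈ D, i + (t : ZMod (N + 1)) ≠ (j : ZMod (N + 1))) ↔ (i.val ≤ m ∧ i.val + t ∉ D) := by
  have hi : ((i.val : ℕ) : ZMod (N + 1)) = i := ZMod.natCast_zmod_val (n := N + 1) i
  have hlt : i.val < N + 1 := ZMod.val_lt i
  constructor
  · intro h
    have hm : i.val ≤ m := by
      by_contra hm
      have h1 : m + 1 ≤ i.val := by omega
      have h2 : i.val - (m + 1) < t := by omega
      refine h _ (ht (mem_range.2 h2)) ?_
      have h3 : i.val + t = (i.val - (m + 1)) + (N + 1) := by omega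
      calc i + (t : ZMod (N + 1)) = ((i.val + t : ℕ) : ZMod (N + 1)) := by
            rw [Nat.cast_add, hi]
        _ = ((i.val - (m + 1) : ℕ) : ZMod (N + 1)) := by
            rw [h3, Nat.cast_add, ZMod.natCast_self, add_zero]
    refine ⟨hm, fun hmem => h _ hmem ?_⟩
    rw [Nat.cast_add, hi]
  · rintro ⟨h, hnot⟩ j hj he
    have h1 : ((i.val + t : ℕ) : ZMod (N + 1)) = (j : ZMod (N + 1)) := by
      rw [Nat.cast_add, hi]
      exact he
    have h2 := mem_range.1 (hD hj)
    rw [ZMod.natCast_eq_natCast_iff'] at h1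
    rw [Nat.mod_eq_of_lt (by omega), Nat.mod_eq_of_lt (by omega)] at h1
    rw [h1] at hnot
    exact hnot hj

/-- the condition on the untwisted rungs -/
def Ok3 (G : SimpleGraph X) (N : ℕ) (p : ℕ → Bool) (e : Fin (N + 1) → X × X) : Prop :=
  (∀ i : Fin (N + 1), p i.val = true → G.Adj (e i).1 (e i).2) ∧
  (∀ j : Fin N, G.Adj (e j.castSucc).1 (e j.succ).1 ∧ G.Adj (e j.castSucc).2 (e j.succ).2) ∧
  (G.Adj (e (Fin.last N)).1 (e 0).2 ∧ G.Adj (e (Fin.last N)).2 (e 0).1)

theorem unt_iff3 (G : SimpleGraph X) (N : ℕ) (p : ℕ → Bool) (hN : N % 2 = 0)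
    (e : Fin (N + 1) → X × X) :
    ((∀ i : Fin (N + 1), p i.val = true → G.Adj (unt X N e i).1 (unt X N e i).2) ∧
      ∀ i : Fin (N + 1), G.Adj (unt X N e i).1 (unt X N e (i + 1)).2 ∧
        G.Adj (unt X N e (i + 1)).1 (unt X N e i).2) ↔ Ok3 G N p e := by
  have hu : ∀ i, unt X N e i = tws X i.val (e i) := fun i => rfl
  unfold Ok3
  refine and_congr ?_ ?_
  · refine forall_congr' fun i => ?_
    rw [hu, tws_rung]
  · have h0 : tws X (0 : Fin (N + 1)).val = Equiv.refl _ := by
      unfold tws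
      rw [if_pos]
      simp
    have hl : tws X (Fin.last N).val = Equiv.refl _ := by
      unfold tws
      rw [if_pos]
      simpa using hN
    constructor
    · intro h
      refine ⟨fun j => ?_, ?_⟩
      · have h1 := h j.castSucc
        rw [Fin.coeSucc_eq_succ, hu, hu] at h1
        exact (tws_step G j.val _ _).1 h1
      · have h1 := h (Fin.last N)
        rw [Fin.last_add_one, hu, hu, h0, hl] at h1
        exact ⟨h1.1, h1.2.symm⟩
    · rintro ⟨ha, hb⟩ i
      refine Fin.lastCases ?_ (fun j => ?_) i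
      · rw [Fin.last_add_one, hu, hu, h0, hl]
        exact ⟨hb.1, hb.2.symm⟩
      · rw [Fin.coeSucc_eq_succ, hu, hu]
        exact (tws_step G j.val _ _).2 (ha j)

/-- a step, with the rung at its end -/
noncomputable def K3 (G : SimpleGraph X) (p : ℕ → Bool) (j : ℕ) (x y : X × X) : ℝ :=
  adj G x.1 y.1 * adj G x.2 y.2 * (if p (j + 1) then adj G y.1 y.2 else 1)

open Classical in
theorem K3_ind (G : SimpleGraph X) (p : ℕ → Bool) (j : ℕ) (x y : X × X) : K3 G p j x y =
    if (G.Adj x.1 y.1 ∧ G.Adj x.2 y.2) ∧ (p (j + 1) = true → G.Adj y.1 y.2) then 1 else 0 := by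
  unfold K3 adj
  by_cases h1 : G.Adj x.1 y.1 <;> by_cases h2 : G.Adj x.2 y.2 <;>
    by_cases h3 : G.Adj y.1 y.2 <;> by_cases h4 : p (j + 1) = true <;> simp [h1, h2, h3, h4]

open Classical in
theorem ok3_ind (G : SimpleGraph X) (N : ℕ) (p : ℕ → Bool) (hp : p 0 = true)
    (e : Fin (N + 1) → X × X) :
    (if Ok3 G N p e then (1 : ℝ) else 0) =
      (∏ j : Fin N, K3 G p j.val (e j.castSucc) (e j.succ)) *
        (adj G (e 0).1 (e 0).2 * DD G (e (Fin.last N)) (e 0).swap) := by
  have h2 : DD G (e (Fin.last N)) (e 0).swap =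
      if G.Adj (e (Fin.last N)).1 (e 0).2 ∧ G.Adj (e (Fin.last N)).2 (e 0).1 then 1 else 0 :=
    DD_ind G _ _
  by_cases h : (∀ i : Fin (N + 1), p i.val = true → G.Adj (e i).1 (e i).2) ∧
      (∀ j : Fin N, G.Adj (e j.castSucc).1 (e j.succ).1 ∧ G.Adj (e j.castSucc).2 (e j.succ).2)
  · have h1 : ∏ j : Fin N, K3 G p j.val (e j.castSucc) (e j.succ) = 1 := by
      refine Finset.prod_eq_one fun j _ => ?_
      rw [K3_ind, if_pos ⟨h.2 j, fun hj => h.1 j.succ (by rw [Fin.val_succ]; exact hj)⟩]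
    have h3 : adj G (e 0).1 (e 0).2 = 1 := by
      unfold adj
      rw [if_pos (h.1 0 (by simpa using hp))]
    rw [h1, h3, one_mul, one_mul, h2]
    by_cases hc : G.Adj (e (Fin.last N)).1 (e 0).2 ∧ G.Adj (e (Fin.last N)).2 (e 0).1
    · rw [if_pos hc, if_pos (show Ok3 G N p e from ⟨h.1, h.2, hc⟩)]
    · rw [if_neg hc, if_neg (fun hok : Ok3 G N p e => hc hok.2.2)]
  · have h1 : (∏ j : Fin N, K3 G p j.val (e j.castSucc) (e j.succ)) *
        (adj G (e 0).1 (e 0).2 * DD G (e (Fin.last N)) (e 0).swap) = 0 := by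
      by_contra hne
      refine h ?_
      have h3 : ∀ j : Fin N, K3 G p j.val (e j.castSucc) (e j.succ) ≠ 0 :=
        fun j => Finset.prod_ne_zero_iff.1 (left_ne_zero_of_mul hne) j (Finset.mem_univ j)
      have h4 : ∀ j : Fin N, (G.Adj (e j.castSucc).1 (e j.succ).1 ∧
          G.Adj (e j.castSucc).2 (e j.succ).2) ∧ (p (j.val + 1) = true →
            G.Adj (e j.succ).1 (e j.succ).2) := by
        intro j
        have h5 := h3 j
        rw [K3_ind] at h5
        by_contra hc
        rw [if_neg hc] at h5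
        exact h5 rfl
      refine ⟨fun i => ?_, fun j => (h4 j).1⟩
      refine Fin.cases (fun _ => ?_) (fun j hj => ?_) i
      · have h6 := left_ne_zero_of_mul (right_ne_zero_of_mul hne)
        unfold adj at h6
        by_contra hc
        rw [if_neg hc] at h6
        exact h6 rfl
      · exact (h4 j).2 (by rw [Fin.val_succ] at hj; exact hj)
    rw [h1, if_neg]
    intro hok
    exact h ⟨hok.1, hok.2.1⟩

theorem card_at (G : SimpleGraph X) (N m t : ℕ) (D : Finset ℕ) (hN : N = m + t) (hm : 1 ≤ m)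
    (ht : range t ⊆ D) (hD : D ⊆ range (N + 1)) :
    Nat.card (cutAt (N + 1) D →g G) =
      Nat.card {w : Fin (N + 1) → X × X // (∀ i : Fin (N + 1),
        decide (i.val ≤ m ∧ i.val + t ∉ D) = true → G.Adj (w i).1 (w i).2) ∧
        ∀ i : Fin (N + 1), G.Adj (w i).1 (w (i + 1)).2 ∧ G.Adj (w (i + 1)).1 (w i).2} := by
  have hk : (1 : ZMod (N + 1)) ≠ 0 := by
    have : Fact (1 < N + 1) := ⟨by omega⟩
    exact one_ne_zero
  rw [Nat.card_congr (atEquiv G (N + 1) D hk)]
  have h1 : ∀ w : ZMod (N + 1) → X × X,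
      ((∀ i : ZMod (N + 1), (∀ j ∈ D, i ≠ (j : ZMod (N + 1))) → G.Adj (w i).1 (w i).2) ∧
      ∀ i : ZMod (N + 1), G.Adj (w i).1 (w (i + 1)).2 ∧ G.Adj (w (i + 1)).1 (w i).2) ↔
      ((∀ i : ZMod (N + 1), decide (i.val ≤ m ∧ i.val + t ∉ D) = true →
        G.Adj (w (i + t)).1 (w (i + t)).2) ∧
      ∀ i : ZMod (N + 1), G.Adj (w (i + t)).1 (w (i + 1 + t)).2 ∧
        G.Adj (w (i + 1 + t)).1 (w (i + t)).2) := by
    intro w
    refine and_congr ?_ ?_
    · constructor
      · intro h i hi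
        exact h _ ((posD hN ht hD i).2 (of_decide_eq_true hi))
      · intro h i hi
        have h2 := h (i - t) (decide_eq_true ((posD hN ht hD _).1 (by
          rw [sub_add_cancel]; exact hi)))
        rwa [sub_add_cancel] at h2
    · constructor
      · intro h i
        have h2 := h (i + t)
        rwa [show i + (t : ZMod (N + 1)) + 1 = i + 1 + t by ring] at h2
      · intro h i
        have h2 := h (i - t)
        rwa [sub_add_cancel, show i - (t : ZMod (N + 1)) + 1 + t = i + 1 by ring] at h2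
  exact Nat.card_congr (Equiv.subtypeEquiv
    (Equiv.arrowCongr (Equiv.addRight (t : ZMod (N + 1))).symm (Equiv.refl (X × X))) (fun w => h1 w))

theorem card_ok3 (G : SimpleGraph X) (N m t : ℕ) (D : Finset ℕ) (hN : N = m + t) (hm : 1 ≤ m)
    (ht : range t ⊆ D) (hD : D ⊆ range (N + 1)) (h2 : N % 2 = 0) :
    Nat.card (cutAt (N + 1) D →g G) = Nat.card {e : Fin (N + 1) → X × X //
      Ok3 G N (fun i => decide (i ≤ m ∧ i + t ∉ D)) e} := by
  rw [card_at G N m t D hN hm ht hD]
  exact (Nat.card_congr (Equiv.subtypeEquiv (unt X N) (fun e =>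
    (unt_iff3 G N (fun i => decide (i ≤ m ∧ i + t ∉ D)) h2 e).symm))).symm

open Classical in
theorem count3 (G : SimpleGraph X) (N m t : ℕ) (D : Finset ℕ) (hN : N = m + t) (hm : 1 ≤ m)
    (ht : range t ⊆ D) (hD : D ⊆ range (N + 1)) (h0 : t ∉ D) (h2 : N % 2 = 0) :
    (Nat.card (cutAt (N + 1) D →g G) : ℝ) =
      ∑ e : Fin (N + 1) → X × X,
        (∏ j : Fin N, K3 G (fun i => decide (i ≤ m ∧ i + t ∉ D)) j.val (e j.castSucc) (e j.succ)) *
          (adj G (e 0).1 (e 0).2 * DD G (e (Fin.last N)) (e 0).swap) := by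
  rw [card_ok3 G N m t D hN hm ht hD h2, Nat.card_eq_fintype_card, Fintype.card_subtype,
    card_eq_sum_ones, sum_filter]
  push_cast
  refine sum_congr rfl fun e _ => ?_
  have := ok3_ind G N (fun i => decide (i ≤ m ∧ i + t ∉ D)) (by simpa using h0) e
  exact this

theorem zl_free [DecidableEq X] (G : SimpleGraph X) (p : ℕ → Bool) (m t : ℕ)
    (hp : ∀ i, m < i → p i = false) (b c : X × X) :
    zl (adj G) p (m + t) b c = ∑ a, zl (adj G) p m b a * zp (DD G) t a c := by
  induction t generalizing c with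
  | zero => simp [zp]
  | succ t ih =>
    have h1 : zl (adj G) p (m + (t + 1)) b c = ∑ d, zl (adj G) p (m + t) b d *
      (adj G d.1 c.1 * adj G d.2 c.2 * (if p (m + (t + 1)) then adj G c.1 c.2 else 1)) := rfl
    have h2 : ∀ a, zp (DD G) (t + 1) a c = ∑ d, zp (DD G) t a d * DD G d c := fun a => rfl
    rw [h1, hp _ (by omega)]
    simp only [ih, h2, Finset.sum_mul, Finset.mul_sum, Bool.false_eq_true, if_false, mul_one]
    rw [Finset.sum_comm]
    refine Finset.sum_congr rfl fun a _ => Finset.sum_congr rfl fun d _ => ?_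
    unfold DD
    ring

/-- the sum, before it is cut at its centre -/
theorem at_num [DecidableEq X] [Nonempty X] (G : SimpleGraph X) (N m t : ℕ) (D : Finset ℕ)
    (hN : N = m + t) (hm : 1 ≤ m) (ht : range t ⊆ D) (hD : D ⊆ range (N + 1)) (h0 : t ∉ D)
    (h2 : N % 2 = 0) :
    homDensity (cutAt (N + 1) D) G * (Fintype.card X : ℝ) ^ (2 * (N + 1)) =
      ∑ b : X × X, ∑ a, adj G b.1 b.2 * zl (adj G) (fun i => decide (i ≤ m ∧ i + t ∉ D)) m b a *
        cj (adj G) (t + 1) b a := by
  have hn : (0 : ℝ) < Fintype.card X := by exact_mod_cast Fintype.card_pos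
  have h1 : Nat.card (ZMod (N + 1) × Bool) = 2 * (N + 1) := by
    rw [Nat.card_prod, Nat.card_zmod, Nat.card_eq_fintype_card, Fintype.card_bool, mul_comm]
  unfold homDensity
  rw [h1, Nat.card_eq_fintype_card (α := X), div_mul_cancel₀ _ (by positivity),
    count3 G N m t D hN hm ht hD h0 h2]
  have h3 := zpn_path (K3 G (fun i => decide (i ≤ m ∧ i + t ∉ D))) N
    (fun b c => adj G b.1 b.2 * DD G c b.swap)
  refine h3.trans ?_
  have h6 : ∀ b c, zpn (K3 G (fun i => decide (i ≤ m ∧ i + t ∉ D))) N b c =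
      ∑ a, zl (adj G) (fun i => decide (i ≤ m ∧ i + t ∉ D)) m b a * zp (DD G) t a c := by
    intro b c
    have h7 := zl_free G (fun i => decide (i ≤ m ∧ i + t ∉ D)) m t (fun i hi => by
      simp only [decide_eq_false_iff_not, not_and_or]
      left
      omega) b c
    rw [← hN] at h7
    exact h7
  refine Finset.sum_congr rfl fun b _ => ?_
  simp only [h6, Finset.sum_mul]
  rw [Finset.sum_comm]
  refine Finset.sum_congr rfl fun a _ => ?_
  have h4 : zp (DD G) (t + 1) a b.swap = ∑ c, zp (DD G) t a c * DD G c b.swap := rfl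
  have h5 : cj (adj G) (t + 1) b a = zp (DD G) (t + 1) a b.swap := by
    rw [zp_DD]
    unfold cj
    rw [zp_adj_symm G (t + 1) b.2 a.1, zp_adj_symm G (t + 1) b.1 a.2]
    rfl
  rw [h5, h4, Finset.mul_sum]
  exact Finset.sum_congr rfl fun c _ => by ring

end graph

/-- **the graph side** -/
theorem graph3 : Graph3Stmt := by
  intro X _ _ _ G n t D ht1 ht hD h0 hc
  have e0 : 2 * n + 2 * t + 5 = (2 * n + 2 * t + 4) + 1 := rfl
  rw [e0] at hD ⊢
  rw [at_num G (2 * n + 2 * t + 4) (2 * n + t + 4) t D (by ring) (by omega) ht hD h0 (by omega)]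
  unfold nD
  set p : ℕ → Bool := fun i => decide (i ≤ 2 * n + t + 4 ∧ i + t ∉ D) with hp
  have h1 : ∀ b a : X × X, adj G b.1 b.2 * zl (adj G) p (2 * n + t + 4) b a =
      ∑ R : X × X, adj G R.1 R.2 *
        (zl (adj G) (fun i => decide (n + 2 * t + 3 + i ∉ D)) (n + 1) R a *
          zl (adj G) (fun i => decide (n + 2 * t + 3 - i ∉ D)) (n + t + 3) R b) := by
    intro b a
    rw [show 2 * n + t + 4 = (n + t + 3) + (n + 1) by ring, zl_add, Finset.mul_sum]
    refine Finset.sum_congr rfl fun R _ => ?_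
    have e1 : zl (adj G) (fun l => p (n + t + 3 + l)) (n + 1) R a =
        zl (adj G) (fun i => decide (n + 2 * t + 3 + i ∉ D)) (n + 1) R a := by
      refine zl_congr _ (fun i hi1 hi2 => ?_) R a
      simp only [hp]
      rw [decide_eq_decide]
      rw [show n + t + 3 + i + t = n + 2 * t + 3 + i by ring]
      exact ⟨fun h => h.2, fun h => ⟨by omega, h⟩⟩
    have e2 := zl_rev (A := adj G) (M18.adj_symm G) p (n + t + 3) b R
    have e3 : p 0 = true := by simp [hp, h0]
    have e4 : p (n + t + 3) = true := by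
      simp only [hp, decide_eq_true_eq]
      refine ⟨by omega, ?_⟩
      rw [show n + t + 3 + t = n + 2 * t + 3 by ring]
      exact hc
    have e5 : zl (adj G) (fun i => p (n + t + 3 - i)) (n + t + 3) R b =
        zl (adj G) (fun i => decide (n + 2 * t + 3 - i ∉ D)) (n + t + 3) R b := by
      refine zl_congr _ (fun i hi1 hi2 => ?_) R b
      simp only [hp]
      rw [decide_eq_decide]
      rw [show n + t + 3 - i + t = n + 2 * t + 3 - i by omega]
      exact ⟨fun h => h.2, fun h => ⟨by omega, h⟩⟩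
    rw [e3, e4, if_pos rfl, if_pos rfl, e5] at e2
    rw [e1, ← mul_assoc, e2]
    ring
  simp only [h1, Finset.sum_mul]
  rw [Finset.sum_congr rfl fun b _ => Finset.sum_comm]
  rw [Finset.sum_comm]
  refine Finset.sum_congr rfl fun R _ => ?_
  rw [Finset.sum_comm]

end Vale.Agent.P050.V3.H222
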