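import Vale.Agent.P050.V3.H222.Fin
import Vale.Agent.P050.V3.H465.Sum
import Vale.Agent.P050.V3.H283.Lads
import Vale.Agent.P050.V3.H283.Close
import Vale.Agent.P050.V3.H660.Long
import Vale.Agent.P050.V3.H964.Base3
import Vale.Agent.P050.H23.GI

/-!
P050: the Moebius ladder without a set of rungs: the theorem.
-/

namespace Vale.Agent.P050.V3.H222

/-- Moebius ladders without rungs are Sidorenko -/
theorem main3 : Final3Stmt :=
  final3 (H465.sum3 (H283.lads_of H660.long) H964.base3 H283.close3Closed
    Vale.Agent.P050.H23.gInf)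

end Vale.Agent.P050.V3.H222
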